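/-
P217, Q1: the invariant prime and radical ideals of the Lubin-Tate ring are the height ideals.
-/
import Vale.Agent.P217.Final
import Vale.Agent.P217.Action.Main
import Vale.Agent.P217.Point.Main

namespace Vale.Agent.Results.P217.InvariantIdeals

open Vale.Agent.P217

/-- Full answer to Q1. -/
theorem result : ∀ p n : ℕ, ∀ [Fact p.Prime], 1 ≤ n →
    ∃ F : FormalGroup (LT p n),
      IsUniversalLaw p n F ∧ (∀ F', IsUniversalLaw p n F' → F' = F) ∧
      (∀ d, MvPowerSeries.coeff d (special p n F).toPowerSeries ^ p =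
        MvPowerSeries.coeff d (special p n F).toPowerSeries) ∧
      Easy.mser (special p n F) p = (PowerSeries.X : PowerSeries (Res p n)) ^ p ^ n ∧
      (∀ g, IsStabilizer p n F g →
        ∃! φ : LT p n →ₐ[WittVector p (Res p n)] LT p n, IsAction p n F g φ) ∧
      (∀ g φ, IsStabilizer p n F g → IsAction p n F g φ → Function.Bijective φ) ∧
      (∀ P : Ideal (LT p n), P.IsPrime ∧ IsInvariant p n F P ↔
        ∃ h ≤ n, P = heightIdeal p n h) ∧
      (∀ J : Ideal (LT p n), J.IsRadical ∧ IsInvariant p n F J ↔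
        J = ⊤ ∨ ∃ h ≤ n, J = heightIdeal p n h) := by
  intro p n _ hn
  have hmain : MainStatement := main_of_action_point
    (fun p n _ hF hn => Action.action hn hF) (fun p n _ hF hR => point hF hR)
  obtain ⟨F, hlaw, huniq, hex, hbij, hprime, hrad⟩ := hmain p n hn
  obtain ⟨hL, hE⟩ := facts p n hn F hlaw
  obtain ⟨e, he, -⟩ := pSeries p n F hlaw
  refine ⟨F, hlaw, huniq, hL.special_fixed, ?_, hex, hbij, hprime, hrad⟩
  show Easy.mser (F.map (red p n)) p = _
  rw [← Easy.map_mser, mser_eq_of_isPSeries hlaw he]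
  exact (hE e he).2.special

end Vale.Agent.Results.P217.InvariantIdeals
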